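import Vale.Agent.P004X.P004E.H503.Good
import Vale.Agent.P004X.P004E.H3.Win2
import Vale.Agent.P004X.P004E.H3.Mr
import Vale.Agent.P004X.P004E.H156.Pf
import Vale.Agent.P004X.P004E.H147.Swap
import Vale.Agent.P004X.P004E.H628.F3
import Vale.Agent.P004X.P004E.H357.M9
import Vale.Agent.P004X.P004E.H185.Mert1
import Vale.Agent.P004X.P004E.H394.S7
import Vale.Agent.P004X.P004E.H187.Dual9

/-!
# P004E: all modules together (see `P004X/P004H/H404/ModW.lean`)
-/
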