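import Vale.Agent.P004X.P004E.H503.Good
import Vale.Agent.P004X.P004E.H628.Cls2

/-!
# P004E: analytic rank one for a positive proportion of the twists of one curve
-/

open Real MeasureTheory Set Filter

namespace P004E
namespace Fin

open P004G P004G.Asm

/-- **one curve** -/
theorem curve [Crv] {a b : ℤ} (hcls : StCls a b) (hF : StFirst) (hW : StWin) (hMr : StMr)
    (hB : StBlk) (hS : StStrip) : ∃ c : ℝ, 0 < c ∧ ∃ X₀ : ℕ, ∀ X : ℕ, X₀ ≤ X →
      c * X ≤ (((P004.Fam X).filter (fun D => aRk a b D = 1)).card : ℝ) := by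
  classical
  obtain ⟨σ, N, q₀, hσ, hN, h8, hbd, hq₀, h⟩ := hcls
  have hfe : ∀ m : ℤ, Squarefree m → m.sign = σ → m % (N : ℤ) = 1 → m ≠ 1 →
      FE m (q₀ * (m : ℝ) ^ 2) := by
    intro m h1 h2 h3 h4
    have hm0 : (m : ℝ) ≠ 0 := by exact_mod_cast h1.ne_zero
    exact ⟨by positivity, (h m h1 h2 h3 h4).2.1⟩
  obtain ⟨c, hc, Y₀, hY₀⟩ := good_count hF hW hMr hB hS hσ hN h8 hbd hq₀ hfe
  refine ⟨c, hc, max Y₀ 3, fun X hX => ?_⟩
  refine (hY₀ X ((le_max_left _ _).trans hX)).trans ?_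
  have hX3 : 3 ≤ X := (le_max_right _ _).trans hX
  refine Nat.cast_le.2 (Finset.card_le_card fun m hm => ?_)
  obtain ⟨hm1, hm2⟩ := mem_TG.1 hm
  unfold Cl at hm1
  rw [Finset.mem_filter, mem_sqZ] at hm1
  obtain ⟨⟨h1, h2⟩, h3, h4, h5⟩ := hm1
  have hm : m ≠ 1 := by
    rintro rfl
    simp at h3
    omega
  obtain ⟨g1, _, g3, g4⟩ := h m h2 h4 h5 hm
  rw [Finset.mem_filter]
  unfold P004.Fam
  rw [Finset.mem_filter, Finset.mem_Icc]
  refine ⟨⟨by omega, g1⟩, ?_⟩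
  by_contra hne
  apply hm2
  intro j hj
  apply g4 j
  obtain ⟨k, hk⟩ := g3
  omega

end Fin
end P004E
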